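import Vale.Agent.Lib.helper15.Law

/-! Gibbs inequality and the basic Shannon inequalities. -/

namespace Vale.Agent.H15
namespace Law

open Finset Real
open scoped Classical

variable {α β γ δ : Type}

theorem gibbs0 (μ : Law α) (f : α → β) (g : α → γ) (q : β → γ → ℝ) (hq0 : ∀ b c, 0 ≤ q b c)
    (hq1 : ∀ c (s : Finset β), ∑ b ∈ s, q b c ≤ 1)
    (hpos : μ.AE (fun x => 0 < q (f x) (g x))) :
    μ.Hc f g ≤ μ.E (fun x => - log (q (f x) (g x))) := by
  set fg : α → β × γ := fun x => (f x, g x) with hfg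
  have key : μ.E (fun x => q (f x) (g x) * μ.prob g (g x) / μ.prob fg (fg x)) ≤ 1 := by
    have h1 := E_comp μ fg (μ.vals f ×ˢ μ.vals g)
      (fun i => Finset.mem_product.2 ⟨all_mem_vals μ f i, all_mem_vals μ g i⟩)
      (fun d => q d.1 d.2 * μ.prob g d.2 / μ.prob fg d)
    refine h1.le.trans ?_
    calc ∑ d ∈ μ.vals f ×ˢ μ.vals g, μ.prob fg d * (q d.1 d.2 * μ.prob g d.2 / μ.prob fg d)
        ≤ ∑ d ∈ μ.vals f ×ˢ μ.vals g, q d.1 d.2 * μ.prob g d.2 := by
          refine Finset.sum_le_sum fun d _ => ?_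
          by_cases h : μ.prob fg d = 0
          · rw [h, zero_mul]; exact mul_nonneg (hq0 _ _) (prob_nonneg _ _ _)
          · rw [mul_div_cancel₀ _ h]
      _ = ∑ c ∈ μ.vals g, (∑ b ∈ μ.vals f, q b c) * μ.prob g c := by
          rw [Finset.sum_product_right]; simp only [Finset.sum_mul]
      _ ≤ ∑ c ∈ μ.vals g, μ.prob g c := by
          refine Finset.sum_le_sum fun c _ => ?_
          exact mul_le_of_le_one_left (prob_nonneg _ _ _) (hq1 _ _)
      _ ≤ 1 := sum_prob_le _ _ _
  have h2 : μ.E (fun x => - log (μ.prob fg (fg x)) - - log (μ.prob g (g x))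
      - - log (q (f x) (g x))) ≤
      μ.E (fun x => q (f x) (g x) * μ.prob g (g x) / μ.prob fg (fg x) - 1) := by
    refine E_mono_ae fun i hi => ?_
    have a1 := prob_pos μ fg i hi
    have a2 := prob_pos μ g i hi
    have a3 := hpos i hi
    have := Real.log_le_sub_one_of_pos (div_pos (mul_pos a3 a2) a1)
    rw [Real.log_div (mul_pos a3 a2).ne' a1.ne', Real.log_mul a3.ne' a2.ne'] at this
    simp only at *
    linarith
  rw [E_sub, E_sub, E_sub, E_const] at h2
  unfold Hc H
  linarith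

theorem gibbs (μ : Law α) (f : α → β) (g : α → γ) (q : β → α → ℝ)
    (hdep : ∀ b x y, g x = g y → q b x = q b y) (hq0 : ∀ b x, 0 ≤ q b x)
    (hq1 : ∀ x (s : Finset β), ∑ b ∈ s, q b x ≤ 1)
    (hpos : μ.AE (fun x => 0 < q (f x) x)) :
    μ.Hc f g ≤ μ.E (fun x => - log (q (f x) x)) := by
  let q' : β → γ → ℝ := fun b c => if h : ∃ x, g x = c then q b h.choose else 0
  have hq : ∀ b x, q' b (g x) = q b x := by
    intro b x
    have h : ∃ y, g y = g x := ⟨x, rfl⟩
    simp only [q', dif_pos h]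
    exact hdep _ _ _ h.choose_spec
  have := gibbs0 μ f g q' (fun b c => by
      simp only [q']; split_ifs
      · exact hq0 _ _
      · exact le_rfl)
    (fun c s => by
      simp only [q']; split_ifs
      · exact hq1 _ _
      · simp)
    (fun i hi => by beta_reduce; rw [hq]; exact hpos i hi)
  simpa only [hq] using this

theorem H_const (μ : Law α) (c : β) : μ.H (fun _ => c) = 0 := by
  simp [H, prob]

theorem Hc_unit (μ : Law α) (f : α → β) : μ.Hc f (fun _ => ()) = μ.H f := by
  unfold Hc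
  rw [H_const, sub_zero]
  exact H_eq_of_dep μ fun x y => by simp

theorem gibbs1 (μ : Law α) (f : α → β) (q : β → ℝ) (hq0 : ∀ b, 0 ≤ q b)
    (hq1 : ∀ (s : Finset β), ∑ b ∈ s, q b ≤ 1) (hpos : μ.AE (fun x => 0 < q (f x))) :
    μ.H f ≤ μ.E (fun x => - log (q (f x))) := by
  rw [← Hc_unit]
  exact gibbs0 μ f (fun _ => ()) (fun b _ => q b) (fun b _ => hq0 b) (fun _ s => hq1 s) hpos

theorem sum_ite_div_card_le (t s : Finset β) :
    ∑ b ∈ s, (if b ∈ t then (1 : ℝ) / t.card else 0) ≤ 1 := by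
  rw [← Finset.sum_filter, Finset.sum_const, nsmul_eq_mul]
  rcases Nat.eq_zero_or_pos t.card with h | h
  · simp [h]
  · have h1 : ((s.filter (· ∈ t)).card : ℝ) ≤ t.card := by
      exact_mod_cast Finset.card_le_card fun b hb => (Finset.mem_filter.1 hb).2
    have h2 : (0 : ℝ) < t.card := by exact_mod_cast h
    rw [mul_one_div, div_le_one h2]; exact h1

/-- conditional entropy is at most the expected log size of an allowed set -/
theorem Hc_le_E_log_card (μ : Law α) (f : α → β) (g : α → γ) (U : α → Finset β)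
    (hdep : ∀ x y, g x = g y → U x = U y) (hin : μ.All (fun x => f x ∈ U x)) :
    μ.Hc f g ≤ μ.E (fun x => log (U x).card) := by
  refine (gibbs μ f g (fun b x => if b ∈ U x then 1 / (U x).card else 0)
    (fun b x y h => by rw [hdep x y h]) (fun b x => by positivity)
    (fun x s => sum_ite_div_card_le _ _) (fun i _ => ?_)).trans (E_mono_all fun i => ?_)
  · have h1 := hin i
    have : 0 < (U (μ.pt i)).card := Finset.card_pos.2 ⟨_, h1⟩
    simp only [h1, if_true]; positivity
  · have h1 := hin i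
    simp only [h1, if_true, one_div, Real.log_inv, neg_neg, le_refl]

theorem H_le_log_card (μ : Law α) (f : α → β) (s : Finset β) (hin : μ.All (fun x => f x ∈ s)) :
    μ.H f ≤ log s.card := by
  rw [← Hc_unit]
  simpa using Hc_le_E_log_card μ f (fun _ => ()) (fun _ => s) (fun _ _ _ => rfl) hin

theorem Hc_nonneg (μ : Law α) (f : α → β) (g : α → γ) : 0 ≤ μ.Hc f g :=
  sub_nonneg.2 (H_le_of_dep μ fun _ _ h => (Prod.ext_iff.1 h).2)

theorem Hc_le_of_dep_left (μ : Law α) {f : α → β} {f' : α → δ} {g : α → γ}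
    (h : ∀ x y, f' x = f' y → g x = g y → f x = f y) : μ.Hc f g ≤ μ.Hc f' g :=
  sub_le_sub_right (H_le_of_dep μ fun x y e => by
    obtain ⟨e1, e2⟩ := Prod.ext_iff.1 e
    exact Prod.ext (h x y e1 e2) e2) _

/-- conditioning on more reduces entropy -/
theorem Hc_le_of_dep_right (μ : Law α) (f : α → β) {g : α → γ} {g' : α → δ}
    (h : ∀ x y, g x = g y → g' x = g' y) : μ.Hc f g ≤ μ.Hc f g' := by
  set fg : α → β × δ := fun x => (f x, g' x) with hfg
  refine (gibbs μ f g (fun b x => μ.prob fg (b, g' x) / μ.prob g' (g' x))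
    (fun b x y e => by rw [h x y e])
    (fun b x => div_nonneg (prob_nonneg _ _ _) (prob_nonneg _ _ _)) (fun x s => ?_)
    (fun i hi => div_pos (prob_pos μ fg i hi) (prob_pos μ g' i hi))).trans ?_
  · rw [← Finset.sum_div]
    refine div_le_one_of_le₀ ?_ (prob_nonneg _ _ _)
    unfold prob
    rw [← E_sum]
    refine E_mono fun y => ?_
    by_cases e : g' y = g' x
    · simp only [hfg, e, Prod.mk.injEq, and_true, if_true]
      rw [Finset.sum_ite_eq]; split_ifs <;> norm_num
    · simp [hfg, e]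
  · unfold Hc H
    rw [← E_sub]
    refine E_mono_ae fun i hi => ?_
    have := Real.log_div (prob_pos μ fg i hi).ne' (prob_pos μ g' i hi).ne'
    simp only [hfg] at this ⊢
    linarith

theorem Hc_le_H (μ : Law α) (f : α → β) (g : α → γ) : μ.Hc f g ≤ μ.H f := by
  rw [← Hc_unit]; exact Hc_le_of_dep_right μ f fun _ _ _ => rfl

theorem H_pair_le (μ : Law α) (f : α → β) (g : α → γ) :
    μ.H (fun x => (f x, g x)) ≤ μ.H f + μ.H g := by
  have := Hc_le_H μ f g
  unfold Hc at this; linarith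

/-- if `f` is determined by `f'` and `g` then `H f ≤ H f' + H g` -/
theorem H_le_add (μ : Law α) {f : α → β} {f' : α → δ} {g : α → γ}
    (h : ∀ x y, f' x = f' y → g x = g y → f x = f y) : μ.H f ≤ μ.H f' + μ.H g :=
  (H_le_of_dep μ fun x y e => h x y (Prod.ext_iff.1 e).1 (Prod.ext_iff.1 e).2).trans
    (H_pair_le μ f' g)

theorem H_le_Hc_add (μ : Law α) (f : α → β) (g : α → γ) : μ.H f ≤ μ.Hc f g + μ.H g := by
  unfold Hc
  have := H_le_of_dep μ (f := f) (g := fun x => (f x, g x)) fun _ _ e => (Prod.ext_iff.1 e).1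
  linarith

theorem Hc_swap (μ : Law α) (f : α → β) (g : α → γ) :
    μ.Hc f g + μ.H g = μ.Hc g f + μ.H f := by
  unfold Hc
  have := H_eq_of_dep μ (f := fun x => (f x, g x)) (g := fun x => (g x, f x))
    fun x y => by simp [and_comm]
  linarith

/-- chain rule inequality -/
theorem Hc_chain {ε : Type} (μ : Law α) {F : α → ε} {f : α → β} {f' : α → δ} {g : α → γ}
    (h : ∀ x y, f x = f y → f' x = f' y → g x = g y → F x = F y) :
    μ.Hc F g ≤ μ.Hc f g + μ.Hc f' (fun x => (f x, g x)) := by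
  unfold Hc
  have := H_le_of_dep μ (f := fun x => (F x, g x)) (g := fun x => (f' x, (f x, g x)))
    fun x y e => by
      simp only [Prod.mk.injEq] at e ⊢
      exact ⟨h x y e.2.1 e.1 e.2.2, e.2.2⟩
  linarith

theorem Hc_le_add {ε : Type} (μ : Law α) {F : α → ε} {f : α → β} {f' : α → δ} {g : α → γ}
    (h : ∀ x y, f x = f y → f' x = f' y → g x = g y → F x = F y) :
    μ.Hc F g ≤ μ.Hc f g + μ.Hc f' g :=
  (Hc_chain μ h).trans (add_le_add le_rfl
    (Hc_le_of_dep_right μ f' fun _ _ e => (Prod.ext_iff.1 e).2))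

theorem Hc_le_sum {κ ε : Type} {B : κ → Type} (μ : Law α) (f : (k : κ) → α → B k) (g : α → γ)
    (I : Finset κ) (F : α → ε) (h : ∀ x y, (∀ k ∈ I, f k x = f k y) → F x = F y) :
    μ.Hc F g ≤ ∑ k ∈ I, μ.Hc (f k) g := by
  induction I using Finset.induction_on generalizing ε with
  | empty =>
    simp only [Finset.sum_empty]
    have := Hc_le_of_dep_left μ (f := F) (f' := fun _ => ()) (g := g)
      fun x y _ _ => h x y (by simp)
    refine this.trans ((Hc_le_H _ _ _).trans (H_const _ _).le)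
  | insert k I hk ih =>
    rw [Finset.sum_insert hk]
    refine (Hc_le_add μ (f := f k) (f' := fun x => fun (j : I) => f j x) ?_).trans
      (add_le_add le_rfl (ih _ ?_))
    · intro x y e1 e2 _
      refine h x y fun j hj => ?_
      rcases Finset.mem_insert.1 hj with rfl | hj
      · exact e1
      · exact congrFun e2 ⟨j, hj⟩
    · intro x y e
      exact funext fun j => e j j.2

theorem H_le_sum {κ ε : Type} {B : κ → Type} (μ : Law α) (f : (k : κ) → α → B k)
    (I : Finset κ) (F : α → ε) (h : ∀ x y, (∀ k ∈ I, f k x = f k y) → F x = F y) :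
    μ.H F ≤ ∑ k ∈ I, μ.H (f k) := by
  rw [← Hc_unit]
  simp only [← Hc_unit μ (f _)]
  exact Hc_le_sum μ f _ I F h

theorem AE_bind {μ : Law α} {K : α → Law β} {P : β → Prop} (h : (μ.bind K).AE P) :
    μ.AE (fun x => (K x).AE P) := fun i hi j hj => h ⟨i, j⟩ (mul_ne_zero hi hj)

/-- concavity of entropy -/
theorem H_bind_ge (μ : Law α) (K : α → Law β) (f : β → γ) :
    μ.E (fun x => (K x).H f) ≤ (μ.bind K).H f := by
  unfold H
  rw [E_bind]
  refine E_mono_ae fun i hi => ?_
  exact gibbs1 (K (μ.pt i)) f ((μ.bind K).prob f) (prob_nonneg _ _) (sum_prob_le _ _)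
    (AE_bind (prob_pos (μ.bind K) f) i hi)

end Law
end Vale.Agent.H15
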