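import Mathlib

/-! Finitely supported probability laws and Shannon entropy. -/

namespace Vale.Agent.H15

open Finset Real
open scoped Classical

/-- A finitely supported probability law on `α`. -/
structure Law (α : Type) : Type 1 where
  ι : Type
  fin : Fintype ι
  w : ι → ℝ
  pt : ι → α
  w_nonneg : ∀ i, 0 ≤ w i
  w_sum : ∑ i ∈ @Finset.univ ι fin, w i = 1

namespace Law

variable {α β γ δ : Type}

noncomputable instance instFin (μ : Law α) : Fintype μ.ι := μ.fin

/-- expectation -/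
noncomputable def E (μ : Law α) (f : α → ℝ) : ℝ := ∑ i : μ.ι, μ.w i * f (μ.pt i)

/-- holds at all listed points -/
def All (μ : Law α) (P : α → Prop) : Prop := ∀ i, P (μ.pt i)

/-- holds at all points of positive weight -/
def AE (μ : Law α) (P : α → Prop) : Prop := ∀ i, μ.w i ≠ 0 → P (μ.pt i)

theorem All.ae {μ : Law α} {P : α → Prop} (h : μ.All P) : μ.AE P := fun i _ => h i

theorem All.mono {μ : Law α} {P Q : α → Prop} (h : μ.All P) (hPQ : ∀ x, P x → Q x) :
    μ.All Q := fun i => hPQ _ (h i)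

theorem All.and {μ : Law α} {P Q : α → Prop} (h : μ.All P) (h' : μ.All Q) :
    μ.All (fun x => P x ∧ Q x) := fun i => ⟨h i, h' i⟩

theorem sum_w (μ : Law α) : ∑ i : μ.ι, μ.w i = 1 := μ.w_sum

@[simp] theorem E_const (μ : Law α) (c : ℝ) : μ.E (fun _ => c) = c := by
  unfold E; rw [← Finset.sum_mul, sum_w, one_mul]

theorem E_add (μ : Law α) (f g : α → ℝ) : μ.E (fun x => f x + g x) = μ.E f + μ.E g := by
  unfold E; simp only [mul_add, Finset.sum_add_distrib]

theorem E_sub (μ : Law α) (f g : α → ℝ) : μ.E (fun x => f x - g x) = μ.E f - μ.E g := by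
  unfold E; simp only [mul_sub, Finset.sum_sub_distrib]

theorem E_neg (μ : Law α) (f : α → ℝ) : μ.E (fun x => - f x) = - μ.E f := by
  unfold E; simp only [mul_neg, Finset.sum_neg_distrib]

theorem E_const_mul (μ : Law α) (c : ℝ) (f : α → ℝ) : μ.E (fun x => c * f x) = c * μ.E f := by
  unfold E; rw [Finset.mul_sum]; exact Finset.sum_congr rfl fun i _ => by ring

theorem E_mul_const (μ : Law α) (c : ℝ) (f : α → ℝ) : μ.E (fun x => f x * c) = μ.E f * c := by
  unfold E; rw [Finset.sum_mul]; exact Finset.sum_congr rfl fun i _ => by ring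

theorem E_div_const (μ : Law α) (c : ℝ) (f : α → ℝ) : μ.E (fun x => f x / c) = μ.E f / c := by
  simp only [div_eq_mul_inv, E_mul_const]

theorem E_sum {κ : Type*} (μ : Law α) (s : Finset κ) (f : κ → α → ℝ) :
    μ.E (fun x => ∑ k ∈ s, f k x) = ∑ k ∈ s, μ.E (f k) := by
  unfold E; simp only [Finset.mul_sum]; exact Finset.sum_comm

theorem E_mono_ae {μ : Law α} {f g : α → ℝ} (h : μ.AE (fun x => f x ≤ g x)) : μ.E f ≤ μ.E g := by
  unfold E
  refine Finset.sum_le_sum fun i _ => ?_
  by_cases hw : μ.w i = 0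
  · simp [hw]
  · exact mul_le_mul_of_nonneg_left (h i hw) (μ.w_nonneg i)

theorem E_mono {μ : Law α} {f g : α → ℝ} (h : ∀ x, f x ≤ g x) : μ.E f ≤ μ.E g :=
  E_mono_ae fun _ _ => h _

theorem E_mono_all {μ : Law α} {f g : α → ℝ} (h : μ.All (fun x => f x ≤ g x)) : μ.E f ≤ μ.E g :=
  E_mono_ae h.ae

theorem E_congr_all {μ : Law α} {f g : α → ℝ} (h : μ.All (fun x => f x = g x)) :
    μ.E f = μ.E g :=
  le_antisymm (E_mono_all (h.mono fun _ e => e.le)) (E_mono_all (h.mono fun _ e => e.ge))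

theorem E_nonneg {μ : Law α} {f : α → ℝ} (h : ∀ x, 0 ≤ f x) : 0 ≤ μ.E f := by
  have := E_mono (μ := μ) (f := fun _ => 0) h
  simpa using this

theorem E_le_const {μ : Law α} {f : α → ℝ} {c : ℝ} (h : ∀ x, f x ≤ c) : μ.E f ≤ c := by
  have := E_mono (μ := μ) (g := fun _ => c) h
  simpa using this

theorem E_le_const_all {μ : Law α} {f : α → ℝ} {c : ℝ} (h : μ.All (fun x => f x ≤ c)) :
    μ.E f ≤ c := by
  have := E_mono_all (μ := μ) (g := fun _ => c) h
  simpa using this

theorem const_le_E {μ : Law α} {f : α → ℝ} {c : ℝ} (h : ∀ x, c ≤ f x) : c ≤ μ.E f := by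
  have := E_mono (μ := μ) (f := fun _ => c) h
  simpa using this

/-- point mass -/
noncomputable def pure (a : α) : Law α where
  ι := Unit
  fin := inferInstance
  w := fun _ => 1
  pt := fun _ => a
  w_nonneg := fun _ => zero_le_one
  w_sum := by simp

/-- push-forward -/
noncomputable def map (μ : Law α) (g : α → β) : Law β where
  ι := μ.ι
  fin := μ.fin
  w := μ.w
  pt := fun i => g (μ.pt i)
  w_nonneg := μ.w_nonneg
  w_sum := μ.w_sum

/-- composition with a kernel -/
noncomputable def bind (μ : Law α) (K : α → Law β) : Law β where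
  ι := (i : μ.ι) × (K (μ.pt i)).ι
  fin := inferInstance
  w := fun x => μ.w x.1 * (K (μ.pt x.1)).w x.2
  pt := fun x => (K (μ.pt x.1)).pt x.2
  w_nonneg := fun x => mul_nonneg (μ.w_nonneg _) ((K _).w_nonneg _)
  w_sum := by
    rw [Fintype.sum_sigma]
    simp only [← Finset.mul_sum, sum_w, mul_one]

/-- uniform law on a nonempty finset -/
noncomputable def unif (s : Finset α) (hs : s.Nonempty) : Law α where
  ι := s
  fin := inferInstance
  w := fun _ => 1 / s.card
  pt := fun x => x.1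
  w_nonneg := fun _ => by positivity
  w_sum := by
    have : (s.card : ℝ) ≠ 0 := by exact_mod_cast hs.card_pos.ne'
    simp [this]

@[simp] theorem E_pure (a : α) (f : α → ℝ) : (pure a).E f = f a := by
  show ∑ _i : Unit, (1 : ℝ) * f a = f a
  simp

@[simp] theorem E_map (μ : Law α) (g : α → β) (f : β → ℝ) :
    (μ.map g).E f = μ.E (fun x => f (g x)) := rfl

@[simp] theorem E_bind (μ : Law α) (K : α → Law β) (f : β → ℝ) :
    (μ.bind K).E f = μ.E (fun x => (K x).E f) := by
  show ∑ x : (i : μ.ι) × (K (μ.pt i)).ι,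
    (μ.w x.1 * (K (μ.pt x.1)).w x.2) * f ((K (μ.pt x.1)).pt x.2) = _
  rw [Fintype.sum_sigma]
  unfold E
  refine Finset.sum_congr rfl fun i _ => ?_
  rw [Finset.mul_sum]
  exact Finset.sum_congr rfl fun j _ => by ring

theorem E_unif (s : Finset α) (hs : s.Nonempty) (f : α → ℝ) :
    (unif s hs).E f = (∑ a ∈ s, f a) / s.card := by
  show ∑ x : s, (1 / (s.card : ℝ)) * f x.1 = _
  rw [← Finset.mul_sum, Finset.sum_coe_sort s f]; ring

theorem all_pure {a : α} {P : α → Prop} (h : P a) : (pure a).All P := fun _ => h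

theorem all_map {μ : Law α} {g : α → β} {P : β → Prop} (h : μ.All (fun x => P (g x))) :
    (μ.map g).All P := h

theorem all_bind {μ : Law α} {K : α → Law β} {P : β → Prop}
    (h : μ.All (fun x => (K x).All P)) : (μ.bind K).All P := fun x => h x.1 x.2

theorem all_unif {s : Finset α} {hs : s.Nonempty} {P : α → Prop} (h : ∀ a ∈ s, P a) :
    (unif s hs).All P := fun x => h x.1 x.2

theorem all_true (μ : Law α) {P : α → Prop} (h : ∀ a, P a) : μ.All P := fun _ => h _

/-- equality of laws -/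
def Eqv (μ ν : Law α) : Prop := ∀ f, μ.E f = ν.E f

theorem Eqv.refl (μ : Law α) : μ.Eqv μ := fun _ => rfl
theorem Eqv.symm {μ ν : Law α} (h : μ.Eqv ν) : ν.Eqv μ := fun f => (h f).symm
theorem Eqv.trans {μ ν ρ : Law α} (h : μ.Eqv ν) (h' : ν.Eqv ρ) : μ.Eqv ρ :=
  fun f => (h f).trans (h' f)

/-- probability that `f` takes the value `b` -/
noncomputable def prob (μ : Law α) (f : α → β) (b : β) : ℝ :=
  μ.E (fun x => if f x = b then 1 else 0)

/-- Shannon entropy of `f` -/
noncomputable def H (μ : Law α) (f : α → β) : ℝ := μ.E (fun x => - log (μ.prob f (f x)))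

/-- conditional entropy -/
noncomputable def Hc (μ : Law α) (f : α → β) (g : α → γ) : ℝ :=
  μ.H (fun x => (f x, g x)) - μ.H g

theorem prob_nonneg (μ : Law α) (f : α → β) (b : β) : 0 ≤ μ.prob f b :=
  E_nonneg fun x => by split_ifs <;> norm_num

theorem prob_le_one (μ : Law α) (f : α → β) (b : β) : μ.prob f b ≤ 1 :=
  E_le_const fun x => by split_ifs <;> norm_num

theorem prob_pos (μ : Law α) (f : α → β) : μ.AE (fun x => 0 < μ.prob f (f x)) := by
  intro i hi
  have hw : 0 < μ.w i := lt_of_le_of_ne (μ.w_nonneg i) (Ne.symm hi)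
  unfold prob E
  refine lt_of_lt_of_le ?_ (Finset.single_le_sum (f := fun j => μ.w j *
    (if f (μ.pt j) = f (μ.pt i) then (1 : ℝ) else 0)) (fun j _ => ?_) (Finset.mem_univ i))
  · simpa using hw
  · exact mul_nonneg (μ.w_nonneg j) (by split_ifs <;> norm_num)

theorem Eqv.prob_eq {μ ν : Law α} (h : μ.Eqv ν) (f : α → β) (b : β) :
    μ.prob f b = ν.prob f b := h _

theorem Eqv.H_eq {μ ν : Law α} (h : μ.Eqv ν) (f : α → β) : μ.H f = ν.H f := by
  unfold H
  simp only [h.prob_eq]
  exact h _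

theorem H_map (μ : Law α) (g : α → β) (f : β → γ) : (μ.map g).H f = μ.H (fun x => f (g x)) := rfl

theorem Hc_map (μ : Law α) (g : α → β) (f : β → γ) (f' : β → δ) :
    (μ.map g).Hc f f' = μ.Hc (fun x => f (g x)) (fun x => f' (g x)) := rfl

/-- transfer of entropy along a marginal -/
theorem H_eq_of_map {μ : Law α} {ν : Law β} {g : α → β} (h : (μ.map g).Eqv ν) (f : β → γ) :
    μ.H (fun x => f (g x)) = ν.H f := by rw [← h.H_eq, H_map]

theorem Hc_eq_of_map {μ : Law α} {ν : Law β} {g : α → β} (h : (μ.map g).Eqv ν) (f : β → γ)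
    (f' : β → δ) : μ.Hc (fun x => f (g x)) (fun x => f' (g x)) = ν.Hc f f' := by
  unfold Hc
  rw [← H_eq_of_map h, ← H_eq_of_map h]

/-- the set of values -/
noncomputable def vals (μ : Law α) (f : α → β) : Finset β :=
  Finset.univ.image (fun i : μ.ι => f (μ.pt i))

theorem all_mem_vals (μ : Law α) (f : α → β) : μ.All (fun x => f x ∈ μ.vals f) :=
  fun i => Finset.mem_image_of_mem _ (Finset.mem_univ i)

theorem E_comp (μ : Law α) (f : α → β) (s : Finset β) (hs : μ.All (fun x => f x ∈ s))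
    (φ : β → ℝ) : μ.E (fun x => φ (f x)) = ∑ b ∈ s, μ.prob f b * φ b := by
  unfold prob
  simp only [← E_mul_const]
  rw [← E_sum]
  refine E_congr_all (hs.mono fun x hx => ?_)
  simp only [ite_mul, one_mul, zero_mul]
  rw [Finset.sum_ite_eq]; simp [hx]

theorem sum_prob (μ : Law α) (f : α → β) (s : Finset β) (hs : μ.All (fun x => f x ∈ s)) :
    ∑ b ∈ s, μ.prob f b = 1 := by
  have := E_comp μ f s hs (fun _ => 1)
  simpa using this.symm

theorem sum_prob_eq (μ : Law α) (f : α → β) (s : Finset β) :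
    ∑ b ∈ s, μ.prob f b = μ.E (fun x => if f x ∈ s then 1 else 0) := by
  unfold prob
  rw [← E_sum]
  refine E_congr_all (all_true _ fun x => ?_)
  rw [Finset.sum_ite_eq]

theorem sum_prob_le (μ : Law α) (f : α → β) (s : Finset β) : ∑ b ∈ s, μ.prob f b ≤ 1 := by
  rw [sum_prob_eq]
  exact E_le_const fun x => by split_ifs <;> norm_num

theorem H_nonneg (μ : Law α) (f : α → β) : 0 ≤ μ.H f :=
  E_nonneg fun _ => neg_nonneg.2 (Real.log_nonpos (prob_nonneg _ _ _) (prob_le_one _ _ _))

theorem H_le_of_dep' (μ : Law α) {f : α → β} {g : α → γ}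
    (h : ∀ i j, g (μ.pt i) = g (μ.pt j) → f (μ.pt i) = f (μ.pt j)) : μ.H f ≤ μ.H g := by
  refine E_mono_ae fun i hi => ?_
  apply neg_le_neg
  refine Real.log_le_log (prob_pos μ g i hi) (E_mono_all fun j => ?_)
  by_cases e : g (μ.pt j) = g (μ.pt i)
  · simp [e, h j i e]
  · simp only [e, if_false]; split_ifs <;> norm_num

theorem H_le_of_dep (μ : Law α) {f : α → β} {g : α → γ}
    (h : ∀ x y, g x = g y → f x = f y) : μ.H f ≤ μ.H g := H_le_of_dep' μ fun _ _ => h _ _

theorem H_eq_of_dep (μ : Law α) {f : α → β} {g : α → γ}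
    (h : ∀ x y, g x = g y ↔ f x = f y) : μ.H f = μ.H g :=
  le_antisymm (H_le_of_dep μ fun x y => (h x y).1) (H_le_of_dep μ fun x y => (h x y).2)

theorem H_ge_of_prob_le (μ : Law α) (f : α → β) {θ : ℝ} (h : ∀ b, μ.prob f b ≤ θ) :
    - log θ ≤ μ.H f := by
  have := E_mono_ae (μ := μ) (f := fun _ => - log θ) (g := fun x => - log (μ.prob f (f x)))
    fun i hi => neg_le_neg (Real.log_le_log (prob_pos μ f i hi) (h _))
  simpa [H] using this

end Law
end Vale.Agent.H15
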